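import Crest.Agent.N233.PS.Re

/-!
# Row 233, block Sm (helper98): bistellar flips are homeomorphisms of cones

`Flip K K' A B`: the complex `K'` is obtained from `K` by replacing `A * ∂B` by `∂A * B`.
Complexes on `ℕ` are given by lists of bit masks (`fc`); `sph n l fs` checks that the flips `fs`
carry `l` to the boundary of the `n`-simplex, and then the cone over `l` is `ℝⁿ` (`cone_of_sph`).
-/

set_option autoImplicit false

open Set
open Crest.Agent.N233.PS (Cone)

namespace Crest.Agent.N233.Sm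

variable {V V' : Type*}

/-- one half of the conditions for a flip -/
structure Hf (K K' : Set V → Prop) (A B : Finset V) : Prop where
  st : ∀ s, K s → ↑A ⊆ s → s ⊆ ↑A ∪ ↑B
  no : ∀ s, K s → ¬ ↑B ⊆ s
  old : ∀ s, K s → ¬ ↑A ⊆ s → K' s
  new : ∀ s, s ⊆ ↑A ∪ ↑B → ¬ ↑A ⊆ s → K' s

open Classical in
/-- the flip map -/
noncomputable def fl (A B : Finset V) (hA : A.Nonempty) (x : V → ℝ) : V → ℝ := fun v =>
  x v + (if v ∈ B then A.inf' hA x else 0) - if v ∈ A then A.inf' hA x else 0

theorem continuous_fl (A B : Finset V) (hA : A.Nonempty) : Continuous (fl A B hA) := by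
  have : Continuous fun x : V → ℝ => A.inf' hA x :=
    Continuous.finset_inf'_apply hA fun a _ => continuous_apply a
  refine continuous_pi fun v => ?_
  unfold fl
  split_ifs <;> fun_prop

variable {K K' : Set V → Prop} {A B : Finset V}

theorem fl_mem (hA : A.Nonempty) (hd : Disjoint A B) (h : Hf K K' A B) {x : V → ℝ}
    (hx : x ∈ Cone K) : fl A B hA x ∈ Cone K' := by
  have h0 : 0 ≤ A.inf' hA x := Finset.le_inf' _ _ fun a _ => hx.1 a
  obtain ⟨a, ha, e⟩ := Finset.exists_mem_eq_inf' hA x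
  have h1 : ¬ ↑A ⊆ Function.support (fl A B hA x) := fun h =>
    h ha (by simp [fl, ha, Finset.disjoint_left.1 hd ha, e])
  refine ⟨fun v => ?_, ?_⟩
  · unfold fl
    have := hx.1 v
    split_ifs with h2 h3 h3
    · linarith
    · linarith
    · linarith [Finset.inf'_le x h3]
    · linarith
  · rcases h0.eq_or_lt with h2 | h2
    · have : fl A B hA x = x := funext fun v => by simp [fl, ← h2]
      rw [this] at h1 ⊢
      exact h.old _ hx.2 h1
    · have h3 := h.st _ hx.2 fun a ha => (h2.trans_le (Finset.inf'_le x ha)).ne'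
      refine h.new _ (fun v hv => by_contra fun hn => hv ?_) h1
      have h4 : x v = 0 := by_contra fun h => hn (h3 h)
      simp only [mem_union, Finset.mem_coe, not_or] at hn
      simp [fl, hn.1, hn.2, h4]

theorem fl_fl (hA : A.Nonempty) (hB : B.Nonempty) (hd : Disjoint A B) (h : Hf K K' A B)
    {x : V → ℝ} (hx : x ∈ Cone K) : fl B A hB (fl A B hA x) = x := by
  have h1 : B.inf' hB (fl A B hA x) = A.inf' hA x := by
    refine le_antisymm ?_ (Finset.le_inf' _ _ fun b hb => ?_)
    · obtain ⟨b, hb, e⟩ := not_subset.1 (h.no _ hx.2)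
      refine (Finset.inf'_le _ hb).trans ?_
      rw [Function.notMem_support] at e
      have hb' : b ∈ B := hb
      simp [fl, hb', Finset.disjoint_right.1 hd hb', e]
    · simpa [fl, hb, Finset.disjoint_right.1 hd hb] using hx.1 b
  funext v
  rw [fl, h1, fl]
  ring

/-- a flip is a homeomorphism of cones -/
noncomputable def flHomeo (hA : A.Nonempty) (hB : B.Nonempty) (hd : Disjoint A B)
    (h : Hf K K' A B) (h' : Hf K' K B A) : Cone K ≃ₜ Cone K' where
  toFun x := ⟨fl A B hA x, fl_mem hA hd h x.2⟩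
  invFun x := ⟨fl B A hB x, fl_mem hB hd.symm h' x.2⟩
  left_inv x := Subtype.ext (fl_fl hA hB hd h x.2)
  right_inv x := Subtype.ext (fl_fl hB hA hd.symm h' x.2)
  continuous_toFun := ((continuous_fl A B hA).comp continuous_subtype_val).subtype_mk _
  continuous_invFun := ((continuous_fl B A hB).comp continuous_subtype_val).subtype_mk _

/-- relabelling the vertices -/
theorem cone_relabel {K : Set V → Prop} {K' : Set V' → Prop} (g : V' → V) {D : Set V'}
    (hg : InjOn g D) (hD : ∀ s, K' s → s ⊆ D) (hK : ∀ s, K s → s ⊆ g '' D)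
    (h : ∀ s, s ⊆ D → (K (g '' s) ↔ K' s)) : Nonempty (Cone K ≃ₜ Cone K') := by
  classical
  let bk : (V → ℝ) → V' → ℝ := fun x d => if d ∈ D then x (g d) else 0
  let fw : (V' → ℝ) → V → ℝ := fun y v => if h : ∃ d ∈ D, g d = v then y h.choose else 0
  have h1 : ∀ y, ∀ d ∈ D, fw y (g d) = y d := fun y d hd => by
    have : ∃ d' ∈ D, g d' = g d := ⟨d, hd, rfl⟩
    simp only [fw, dif_pos this]
    rw [hg this.choose_spec.1 hd this.choose_spec.2]
  have h2 : ∀ y, ∀ v ∉ g '' D, fw y v = 0 := fun y v hv => dif_neg hv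
  have h3 : ∀ x, Function.support (bk x) ⊆ D := fun x d hd => by_contra fun h => hd (if_neg h)
  have h4 : ∀ x ∈ Cone K, fw (bk x) = x := fun x hx => funext fun v => by
    by_cases hv : v ∈ g '' D
    · obtain ⟨d, hd, rfl⟩ := hv
      rw [h1 _ d hd]
      exact if_pos hd
    · rw [h2 _ v hv]
      exact (by_contra fun h => hv (hK _ hx.2 (Ne.symm h)))
  have h5 : ∀ y, Function.support y ⊆ D → Function.support (fw y) = g '' Function.support y := by
    intro y hy
    ext v
    refine ⟨fun hv => ?_, ?_⟩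
    · obtain ⟨d, hd, rfl⟩ : v ∈ g '' D := by_contra fun h => hv (h2 _ v h)
      exact ⟨d, by rwa [Function.mem_support, h1 _ d hd] at hv, rfl⟩
    · rintro ⟨d, hd, rfl⟩
      rwa [Function.mem_support, h1 _ d (hy hd)]
  refine ⟨⟨⟨fun x => ⟨bk x, fun d => ?_, ?_⟩, fun y => ⟨fw y, fun v => ?_, ?_⟩,
    fun x => Subtype.ext (h4 _ x.2), fun y => Subtype.ext (funext fun d => ?_)⟩, ?_, ?_⟩⟩
  · simp only [bk]
    split_ifs
    exacts [x.2.1 _, le_rfl]
  · rw [← h _ (h3 _), ← h5 _ (h3 _), h4 _ x.2]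
    exact x.2.2
  · simp only [fw]
    split_ifs
    exacts [y.2.1 _, le_rfl]
  · rw [h5 _ (hD _ y.2.2), h _ (hD _ y.2.2)]
    exact y.2.2
  · by_cases hd : d ∈ D
    · exact (if_pos hd).trans (h1 _ d hd)
    · exact (if_neg hd).trans (by_contra fun h => hd (hD _ y.2.2 (Ne.symm h)))
  · refine Continuous.subtype_mk (continuous_pi fun d => ?_) _
    simp only [bk]
    split_ifs
    exacts [(continuous_apply _).comp continuous_subtype_val, continuous_const]
  · refine Continuous.subtype_mk (continuous_pi fun v => ?_) _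
    simp only [fw]
    split_ifs
    exacts [(continuous_apply _).comp continuous_subtype_val, continuous_const]

/-- the boundary of the simplex with vertices `0, …, n` -/
def bdS (n : ℕ) (s : Set ℕ) : Prop := s ⊆ Iic n ∧ ¬ Iic n ⊆ s

theorem cone_bdS (n : ℕ) : Nonempty (Cone (bdS n) ≃ₜ EuclideanSpace ℝ (Fin n)) := by
  let c : (Fin n → ℝ) → Fin (n + 1) → ℝ := fun y => Fin.cons 0 y
  let m : (Fin n → ℝ) → ℝ := fun y => Finset.univ.inf' Finset.univ_nonempty (c y)
  have hc : ∀ k, Continuous fun y => c y k := fun k => by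
    refine Fin.cases ?_ (fun i => ?_) k
    · exact continuous_const
    · exact continuous_apply i
  have hm : Continuous m := Continuous.finset_inf'_apply _ fun k _ => hc k
  let bk : (Fin n → ℝ) → ℕ → ℝ := fun y k => if h : k < n + 1 then c y ⟨k, h⟩ - m y else 0
  refine ⟨Homeomorph.trans (Y := Fin n → ℝ) ⟨⟨fun x i => x.1 (i + 1) - x.1 0, fun y => ⟨bk y, fun k => ?_, ?_, ?_⟩,
    fun x => Subtype.ext (funext fun k => ?_), fun y => funext fun i => ?_⟩,
    continuous_pi fun i => ((continuous_apply _).comp continuous_subtype_val).sub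
      ((continuous_apply _).comp continuous_subtype_val), ?_⟩
    (EuclideanSpace.equiv (Fin n) ℝ).toHomeomorph.symm⟩
  · simp only [bk]
    split_ifs
    exacts [sub_nonneg.2 (Finset.inf'_le _ (Finset.mem_univ _)), le_rfl]
  · exact fun k hk => by_contra fun h => hk (dif_neg (by simpa [Nat.lt_succ_iff] using h))
  · obtain ⟨k, -, e⟩ := Finset.exists_mem_eq_inf' Finset.univ_nonempty (c y)
    refine fun h => h (show k.1 ∈ Iic n from Nat.lt_succ_iff.1 k.2) ?_
    simp only [bk, dif_pos k.2, m, e, Fin.eta, sub_self]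
  · have h1 : ∀ k : Fin (n + 1), c (fun i => x.1 (i + 1) - x.1 0) k = x.1 k - x.1 0 :=
      fun k => Fin.cases (by simp [c]) (fun i => by simp [c]) k
    have h2 : m (fun i => x.1 (i + 1) - x.1 0) = - x.1 0 := by
      refine le_antisymm ?_ (Finset.le_inf' _ _ fun k _ => by rw [h1]; linarith [x.2.1 k])
      obtain ⟨k, hk, e⟩ := not_subset.1 x.2.2.2
      rw [Function.notMem_support] at e
      refine (Finset.inf'_le _ (Finset.mem_univ ⟨k, Nat.lt_succ_iff.2 hk⟩)).trans ?_
      rw [h1, e, zero_sub]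
    simp only [bk]
    split_ifs with h
    · rw [h1, h2]
      ring
    · exact by_contra fun h' => h (Nat.lt_succ_iff.2 (x.2.2.1 (Ne.symm h')))
  · have h1 : (i : ℕ) + 1 < n + 1 := Nat.succ_lt_succ i.2
    simp only [bk, dif_pos h1, dif_pos (Nat.succ_pos n), sub_sub_sub_cancel_right]
    exact sub_zero _
  · refine Continuous.subtype_mk (continuous_pi fun k => ?_) _
    simp only [bk]
    split_ifs
    exacts [(hc _).sub hm, continuous_const]

/-! ### bit masks -/

/-- the set of bits -/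
def bits (m : ℕ) : Set ℕ := {i | m.testBit i = true}

/-- the complex with facets `l` -/
def fc (l : List ℕ) (s : Set ℕ) : Prop := ∃ m ∈ l, s ⊆ bits m

/-- the mask of a list -/
def msk (a : List ℕ) : ℕ := a.foldr (fun i m => 2 ^ i ||| m) 0

/-- inclusion of masks -/
def sub (m k : ℕ) : Bool := m &&& k == m

theorem bits_or (m k : ℕ) : bits (m ||| k) = bits m ∪ bits k := by
  ext i
  simp [bits, Nat.testBit_or]

theorem bits_and (m k : ℕ) : bits (m &&& k) = bits m ∩ bits k := by
  ext i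
  simp [bits, Nat.testBit_and]

theorem bits_pow (i : ℕ) : bits (2 ^ i) = {i} := by
  ext j
  simp [bits, Nat.testBit_two_pow, eq_comm]

theorem bits_zero : bits 0 = ∅ := by
  ext j
  simp [bits]

theorem bits_inj {m k : ℕ} (h : bits m = bits k) : m = k :=
  Nat.eq_of_testBit_eq fun i => by
    have := Set.ext_iff.1 h i
    simp only [bits, mem_ofPred_eq] at this
    exact Bool.eq_iff_iff.2 this

theorem bits_msk (a : List ℕ) : bits (msk a) = ↑a.toFinset := by
  induction a with
  | nil => simp [msk, bits_zero]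
  | cons i a ih =>
    rw [msk, List.foldr_cons, bits_or, bits_pow, ← msk, ih, List.toFinset_cons, Finset.coe_insert,
      insert_eq]

theorem sub_iff {m k : ℕ} : sub m k = true ↔ bits m ⊆ bits k := by
  rw [sub, beq_iff_eq, ← inter_eq_left, ← bits_and]
  exact ⟨fun h => by rw [h], bits_inj⟩

theorem bits_xor_pow {m i : ℕ} (h : i ∈ bits m) : bits (m ^^^ 2 ^ i) = bits m \ {i} := by
  ext j
  by_cases e : i = j
  · subst e
    simp only [bits, mem_ofPred_eq] at h
    simp [bits, Nat.testBit_xor, h]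
  · simp [bits, Nat.testBit_xor, Nat.testBit_two_pow, e, Ne.symm e]

theorem fc_down {l : List ℕ} {s t : Set ℕ} (h : s ⊆ t) (ht : fc l t) : fc l s :=
  let ⟨m, hm, e⟩ := ht
  ⟨m, hm, h.trans e⟩

/-- the flip `(a, b)` is admissible -/
def okF (l : List ℕ) (a b : List ℕ) : Bool :=
  !a.isEmpty && !b.isEmpty && (msk a &&& msk b == 0) &&
    (l.all fun m => !sub (msk b) m && (!sub (msk a) m || sub m (msk a ||| msk b))) &&
    b.all fun i => l.contains ((msk a ||| msk b) ^^^ 2 ^ i)

/-- the result of the flip `(a, b)` -/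
def doF (l : List ℕ) (a b : List ℕ) : List ℕ :=
  (a.map fun i => (msk a ||| msk b) ^^^ 2 ^ i) ++ l.filter fun m => !sub (msk a) m

theorem cone_doF {l a b : List ℕ} (h : okF l a b = true) :
    Nonempty (Cone (fc l) ≃ₜ Cone (fc (doF l a b))) := by
  simp only [okF, Bool.and_eq_true, Bool.not_eq_true', beq_iff_eq,
    List.all_eq_true, Bool.or_eq_true, List.contains_iff_mem, ← Bool.not_eq_true, sub_iff,
    bits_or, bits_msk, List.isEmpty_iff] at h
  obtain ⟨⟨⟨⟨ha, hb⟩, hd⟩, h1⟩, h2⟩ := h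
  have hd' : Disjoint a.toFinset b.toFinset := by
    rw [← Finset.disjoint_coe, Set.disjoint_iff_inter_eq_empty, ← bits_msk, ← bits_msk,
      ← bits_and, hd, bits_zero]
  have hx : ∀ i ∈ (↑a.toFinset ∪ ↑b.toFinset : Set ℕ), bits ((msk a ||| msk b) ^^^ 2 ^ i) =
      (↑a.toFinset ∪ ↑b.toFinset) \ {i} := fun i hi => by
    rw [bits_xor_pow (by rwa [bits_or, bits_msk, bits_msk]), bits_or, bits_msk, bits_msk]
  have hm : ∀ m, m ∈ doF l a b ↔ (∃ i ∈ a, (msk a ||| msk b) ^^^ 2 ^ i = m) ∨
      (m ∈ l ∧ ¬ ↑a.toFinset ⊆ bits m) := fun m => by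
    simp only [doF, List.mem_append, List.mem_map, List.mem_filter, Bool.not_eq_true',
      ← Bool.not_eq_true, sub_iff, bits_msk]
  have n1 : ∀ s, s ⊆ ↑a.toFinset ∪ ↑b.toFinset → ¬ ↑a.toFinset ⊆ s → fc (doF l a b) s := by
    intro s hs hn
    obtain ⟨i, hi, hi'⟩ := not_subset.1 hn
    refine ⟨_, (hm _).2 (Or.inl ⟨i, by simpa using hi, rfl⟩), ?_⟩
    rw [hx i (Or.inl hi)]
    exact subset_sdiff_singleton hs hi'
  have n2 : ∀ s, s ⊆ ↑b.toFinset ∪ ↑a.toFinset → ¬ ↑b.toFinset ⊆ s → fc l s := by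
    intro s hs hn
    obtain ⟨i, hi, hi'⟩ := not_subset.1 hn
    refine ⟨_, h2 i (by simpa using hi), ?_⟩
    rw [hx i (Or.inr hi)]
    exact subset_sdiff_singleton (union_comm _ _ ▸ hs) hi'
  refine ⟨flHomeo (List.toFinset_nonempty_iff _ |>.2 ha) (List.toFinset_nonempty_iff _ |>.2 hb) hd'
    ⟨?_, ?_, ?_, n1⟩ ⟨?_, ?_, ?_, n2⟩⟩
  · rintro s ⟨m, hm, e⟩ hs
    exact e.trans ((h1 m hm).2.resolve_left fun h => h (hs.trans e))
  · rintro s ⟨m, hm, e⟩ hs
    exact (h1 m hm).1 (hs.trans e)
  · rintro s ⟨m, hm', e⟩ hs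
    rcases (h1 m hm').2 with h | h
    · exact ⟨m, (hm _).2 (Or.inr ⟨hm', h⟩), e⟩
    · exact n1 s (e.trans h) hs
  · rintro s ⟨m, hm', e⟩ hs
    rcases (hm _).1 hm' with ⟨i, hi, rfl⟩ | h
    · rw [hx i (Or.inl (by simpa using hi))] at e
      exact e.trans (sdiff_subset.trans (union_comm _ _).subset)
    · exact absurd (hs.trans e) (h1 m h.1).1
  · rintro s ⟨m, hm', e⟩ hs
    rcases (hm _).1 hm' with ⟨i, hi, rfl⟩ | h
    · rw [hx i (Or.inl (by simpa using hi))] at e
      exact (e (hs (show i ∈ (↑a.toFinset : Set ℕ) by simpa using hi))).2 rfl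
    · exact h.2 (hs.trans e)
  · rintro s ⟨m, hm', e⟩ hs
    rcases (hm _).1 hm' with ⟨i, hi, rfl⟩ | h
    · rw [hx i (Or.inl (by simpa using hi))] at e
      exact n2 s (e.trans (sdiff_subset.trans (union_comm _ _).subset)) hs
    · exact ⟨m, h.1, e⟩

/-- `l` is the boundary of the simplex `0, …, n` -/
def isS (n : ℕ) (l : List ℕ) : Bool :=
  (l.all fun m => sub m (msk (List.range (n + 1))) && !sub (msk (List.range (n + 1))) m) &&
    (List.range (n + 1)).all fun i => l.contains (msk (List.range (n + 1)) ^^^ 2 ^ i)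

theorem fc_of_isS {n : ℕ} {l : List ℕ} (h : isS n l = true) : fc l = bdS n := by
  have e : bits (msk (List.range (n + 1))) = Iic n := by
    rw [bits_msk]
    ext i
    simp
  simp only [isS, Bool.and_eq_true, List.all_eq_true, Bool.not_eq_true', ← Bool.not_eq_true,
    sub_iff, e, List.contains_iff_mem, List.mem_range, Nat.lt_succ_iff] at h
  funext s
  refine propext ⟨?_, fun hs => ?_⟩
  · rintro ⟨m, hm, h'⟩
    exact ⟨h'.trans (h.1 m hm).1, fun h2 => (h.1 m hm).2 (h2.trans h')⟩
  · obtain ⟨i, hi, hi'⟩ := not_subset.1 hs.2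
    refine ⟨_, h.2 i hi, ?_⟩
    rw [bits_xor_pow (e ▸ hi), e]
    exact subset_sdiff_singleton hs.1 hi'

/-- the flips `fs` carry `l` to the boundary of the simplex `0, …, n` -/
def sph (n : ℕ) : List ℕ → List (List ℕ × List ℕ) → Bool
  | l, [] => isS n l
  | l, f :: fs => okF l f.1 f.2 && sph n (doF l f.1 f.2) fs

theorem cone_of_sph {n : ℕ} {fs : List (List ℕ × List ℕ)} : ∀ {l : List ℕ}, sph n l fs = true →
    Nonempty (Cone (fc l) ≃ₜ EuclideanSpace ℝ (Fin n)) := by
  induction fs with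
  | nil => exact fun h => fc_of_isS h ▸ cone_bdS n
  | cons f fs ih =>
    intro l h
    rw [sph, Bool.and_eq_true] at h
    obtain ⟨e⟩ := cone_doF h.1
    obtain ⟨e'⟩ := ih h.2
    exact ⟨e.trans e'⟩

end Crest.Agent.N233.Sm
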